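import Vale.Agent.P092.H387.Pl2
import Vale.Agent.P092.H305.NisP
import Vale.Agent.P092.SNP.Blocks

/-!
P092, Team N, products (helper305): the source group `E = Π_j PSL_(N_j+1)(k_j)`, its letters, and
the coordinates of a lattice of `E` (target letters): finite balls, injectivity, no invariant
states.
-/

set_option linter.all false

open scoped LinearAlgebra.Projectivization
open Matrix Filter Topology Set

namespace Vale.Agent.P092.H305.PX

open Vale.Agent.P092.RC (Moore GG PG YY ct)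
open Vale.Agent.P092.SN (Prv Adm inc PH UD nm CG)
open Vale.Agent.P092.H933 (LocK)
open Vale.Agent.P092.H35 (sp mkP)
open Vale.Agent.P092.H644.PGr (tauG tauP tauP_cont tauP_can pair_gl)
open Vale.Agent.P092.H387.Ad (spq qO mk_qO sp_qO ph_qO adm_psl adm_pi finite_centerk)
open Vale.Agent.P092.H514.NI (Covol)
open Vale.Agent.P092.SNP (AdmP ZP)

/-- `PSL_(N+1)(k)` -/
abbrev Pf (k : Type) [NontriviallyNormedField k] (N : ℕ) : Type :=
  GG k N ⧸ Subgroup.center (GG k N)

/-- the source group -/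
abbrev EP {J : Type} (k : J → Type) [∀ j, NontriviallyNormedField (k j)] (N : J → ℕ) : Type :=
  ∀ j, Pf (k j) (N j)

section let'

variable {J : Type} [DecidableEq J] (k : J → Type) [∀ j, NontriviallyNormedField (k j)]
  (N : J → ℕ)

/-- the factor `j` -/
noncomputable def iP (j : J) : GG (k j) (N j) →* EP k N :=
  (MonoidHom.mulSingle (fun j => Pf (k j) (N j)) j).comp (QuotientGroup.mk' _)

/-- the action on the points of the factor `j` -/
noncomputable def aP (j : J) : EP k N →* PG (k j) (N j + 1) :=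
  (spq (k j) (N j) (Subgroup.center (GG (k j) (N j))) le_rfl).comp
    (Pi.evalMonoidHom (fun j => Pf (k j) (N j)) j)

/-- the action on the hyperplanes of the factor `j` -/
noncomputable def aP' (j : J) : EP k N →* PG (k j) (N j + 1) :=
  ((tauP (k j) (N j + 1)).comp (spq (k j) (N j) (Subgroup.center (GG (k j) (N j))) le_rfl)).comp
    (Pi.evalMonoidHom (fun j => Pf (k j) (N j)) j)

variable {k N}

theorem adm_P [∀ j, ProperSpace (k j)] (hk : ∀ j, LocK (k j)) (hN : ∀ j, 2 ≤ N j) (j : J) :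
    Adm (iP k N j) (aP k N j) (aP' k N j) :=
  adm_pi (E := fun j => Pf (k j) (N j)) (fun _ => inferInstance) j (adm_psl (hk j) (hN j) _ le_rfl)

theorem iP_apply_ne {i j : J} (h : i ≠ j) (g : GG (k i) (N i)) : iP k N i g j = 1 :=
  Pi.mulSingle_eq_of_ne (Ne.symm h) _

theorem iP_apply_same (j : J) (g : GG (k j) (N j)) :
    iP k N j g j = QuotientGroup.mk' (Subgroup.center (GG (k j) (N j))) g :=
  Pi.mulSingle_eq_same _ _

theorem aP_same (j : J) (g : GG (k j) (N j)) : aP k N j (iP k N j g) = sp (k j) (N j + 1) g := by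
  change spq (k j) (N j) _ le_rfl (iP k N j g j) = _
  rw [iP_apply_same]
  rfl

theorem aP'_same (j : J) (g : GG (k j) (N j)) :
    aP' k N j (iP k N j g) = tauP (k j) (N j + 1) (sp (k j) (N j + 1) g) := by
  change tauP (k j) (N j + 1) (spq (k j) (N j) _ le_rfl (iP k N j g j)) = _
  rw [iP_apply_same]
  rfl

theorem aP_iP {i j : J} (h : i ≠ j) (g : GG (k i) (N i)) : aP k N j (iP k N i g) = 1 := by
  change spq (k j) (N j) _ le_rfl (iP k N i g j) = 1
  rw [iP_apply_ne h, map_one]

theorem aP'_iP {i j : J} (h : i ≠ j) (g : GG (k i) (N i)) : aP' k N j (iP k N i g) = 1 := by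
  change tauP (k j) (N j + 1) (spq (k j) (N j) _ le_rfl (iP k N i g j)) = 1
  rw [iP_apply_ne h, map_one, map_one]

theorem admP_P [∀ j, ProperSpace (k j)] (hk : ∀ j, LocK (k j)) (hN : ∀ j, 2 ≤ N j) :
    AdmP (iP k N) (aP k N) (aP' k N) where
  adm := adm_P hk hN
  triv i j h g x := by rw [aP_iP h, one_smul]
  triv' i j h g x := by rw [aP'_iP h, one_smul]

end let'

section co

variable {J : Type} {k : J → Type} [∀ j, NontriviallyNormedField (k j)] {N : J → ℕ}
  (Γ : Subgroup (EP k N))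

/-- the coordinates of an element of `Γ` -/
noncomputable def co (j : J) (γ : Γ) : GG (k j) (N j) :=
  qO (Subgroup.center (GG (k j) (N j))) ((γ : EP k N) j)

theorem sp_co (j : J) (γ : Γ) : sp (k j) (N j + 1) (co Γ j γ) =
    spq (k j) (N j) (Subgroup.center (GG (k j) (N j))) le_rfl ((γ : EP k N) j) := sp_qO le_rfl _

theorem ph_co (j : J) : PH (co Γ j) :=
  ph_qO (Z := Subgroup.center (GG (k j) (N j))) le_rfl
    ((Pi.evalMonoidHom (fun j => Pf (k j) (N j)) j).comp Γ.subtype)

/-- the centre is the kernel of `SL → PGL` -/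
theorem eq_one_of_sp {k : Type} [NontriviallyNormedField k] {n : ℕ} {e : Pf k n}
    (h : sp k (n + 1) (qO (Subgroup.center (GG k n)) e) = 1) : e = 1 := by
  rw [← mk_qO (Subgroup.center (GG k n)) e]
  refine (QuotientGroup.eq_one_iff _).2 ?_
  refine Subgroup.mem_center_iff.2 fun x => H35.sp_central h x

/-- **The coordinates are jointly injective.** -/
theorem inj_co (γ : Γ) (h : ∀ j, sp (k j) (N j + 1) (co Γ j γ) = 1) : γ = 1 := by
  apply Subtype.ext
  funext j
  exact eq_one_of_sp (h j)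

theorem t2_Pf (k : Type) [NontriviallyNormedField k] (n : ℕ) : T2Space (Pf k n) :=
  H387.Ad.t2_quo le_rfl

/-- **The coordinates are jointly proper.** -/
theorem fin_co [∀ j, ProperSpace (k j)] [DiscreteTopology Γ] (C : ℝ) :
    {γ : Γ | ∀ j, nm (co Γ j γ) ≤ C}.Finite := by
  haveI : ∀ j, T2Space (Pf (k j) (N j)) := fun j => t2_Pf (k j) (N j)
  have h1 : IsCompact (Set.univ.pi fun j =>
      ((QuotientGroup.mk' (Subgroup.center (GG (k j) (N j))) : GG (k j) (N j) → Pf (k j) (N j)) ''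
        {g : GG (k j) (N j) | H35.nmx g.1 ≤ C})) :=
    isCompact_univ_pi fun j =>
      (H35.isCompact_bdd (k := k j) (n := N j + 1) C).image continuous_quotient_mk'
  refine (H790.finite_inter Γ h1).subset fun γ hγ j _ => ?_
  exact ⟨co Γ j γ, hγ j, mk_qO _ _⟩

/-- **No invariant states** for every coordinate. -/
theorem nis_co [DecidableEq J] [∀ j, ProperSpace (k j)] (hΓ : Covol Γ) (i : J) {j : ℕ}
    (h1 : 1 ≤ j) (h2 : j ≤ N i)
    (φ : CG (k i) (N i) j →ₗ[ℂ] ℂ) (hpos : ∀ f, 0 ≤ (φ (star f * f)).re) (hone : φ 1 = 1)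
    (hinv : ∀ γ, ∀ f f' : CG (k i) (N i) j, (∀ x, f' (co Γ i γ • x) = f x) → φ f' = φ f) :
    False := by
  refine H305.NP.nis_e (aP k N i) ?_ (fun s => ⟨iP k N i s, ?_⟩) Γ hΓ (co Γ i)
    (fun γ => sp_co Γ i γ) h1 h2 φ hpos hone hinv
  · exact (H35.sp_cont.quotient_lift _).comp (continuous_apply i)
  · exact aP_same i s

/-- **No invariant states**, dual picture. -/
theorem nis_co' [DecidableEq J] [∀ j, ProperSpace (k j)] (hΓ : Covol Γ) (i : J) {j : ℕ}
    (h1 : 1 ≤ j) (h2 : j ≤ N i)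
    (φ : CG (k i) (N i) j →ₗ[ℂ] ℂ) (hpos : ∀ f, 0 ≤ (φ (star f * f)).re) (hone : φ 1 = 1)
    (hinv : ∀ γ, ∀ f f' : CG (k i) (N i) j, (∀ x, f' (ct (co Γ i γ) • x) = f x) → φ f' = φ f) :
    False := by
  have hct : ∀ g : GG (k i) (N i), sp (k i) (N i + 1) (ct g) =
      tauP (k i) (N i + 1) (sp (k i) (N i + 1) g) := fun g => tauP_can (g := g) (g' := ct g) rfl
  refine H305.NP.nis_e (aP' k N i) ?_ (fun s => ⟨iP k N i (ct s), ?_⟩) Γ hΓ
    (fun γ => ct (co Γ i γ)) (fun γ => ?_) h1 h2 φ hpos hone hinv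
  · exact ((tauP_cont (k := k i) (n := N i + 1)).comp (H35.sp_cont.quotient_lift _)).comp
      (continuous_apply i)
  · rw [aP'_same, ← hct]
    congr 1
    apply Subtype.ext
    change (((ct s)⁻¹ : GG (k i) (N i)).1).transpose = s.1
    rw [← map_inv]
    change ((((s⁻¹)⁻¹ : GG (k i) (N i)).1).transpose).transpose = s.1
    rw [inv_inv, Matrix.transpose_transpose]
  · rw [hct, sp_co]
    rfl

end co

end Vale.Agent.P092.H305.PX
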