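import Vale.Agent.P092.H305.PX.Pair
import Vale.Agent.P092.H305.PX.Coord
import Vale.Agent.P092.H337.NGj
import Vale.Agent.P092.H584.TauP
import Vale.Agent.P092.H859.ExB
import Vale.Agent.P092.H776.KW
import Vale.Agent.P092.H725.SN.LegB
import Vale.Agent.P092.SNP.Fin

/-!
P092, Team N, products (helper305), **[P-EX]**: the concrete picture over a product of factors gives
both families of legs, from the positions `HPos`.
-/

set_option linter.all false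

open scoped InnerProductSpace ENNReal LinearAlgebra.Projectivization
open Filter Topology ContinuousLinearMap MeasureTheory TopologicalSpace

namespace Vale.Agent.P092.H305.PX

open Vale.Agent.P092.H160 Vale.Agent.P092.SR
open Vale.Agent.P092.H337.NG (G2 RG exists_tau)
open Vale.Agent.P092.RC (Cm TRN Moore GG PG YY y0 ct KK pic lam₁ lam₂ XX Om)
open Vale.Agent.P092.SN (CY CG nm NW Att act PH UD NWA NWS EFam Adm bw un LegN)
open Vale.Agent.P092.SNP (ZP AdmP)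
open Vale.Agent.P092.H100.Gr (Gr)
open Vale.Agent.P092.H76.Pur (NIS)
open Vale.Agent.P092.H368.SN (Cz cz_pi cz_psl ad0_of)
open Vale.Agent.P092.H805.RowN (msE)
open Vale.Agent.P092.H35 (sp)

section ex

variable {E : Type} [Group E] [TopologicalSpace E] [IsTopologicalGroup E] [LocallyCompactSpace E]
  [SecondCountableTopology E] [T2Space E] [MeasurableSpace E] [BorelSpace E]
  {Γ : Subgroup E} [DiscreteTopology Γ] [Countable Γ] [MeasurableSpace (E ⧸ Γ)]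
  [BorelSpace (E ⧸ Γ)] {ν : Measure (E ⧸ Γ)} [IsProbabilityMeasure ν]
  (hν : ∀ g : E, ν.map (fun x => g • x) = ν)
  {Λ : Type} [Group Λ] [Countable Λ] {α : Γ →* (Ell2 Λ →L[ℂ] Ell2 Λ)} (hα : Frame α)

/-- **The positions**: the mass of `b ^ n` has one block of size one, for the letter `q` -/
def HPos {k : Type} [NontriviallyNormedField k] {n : ℕ} (q : Γ → GG k n) (b : E) : Prop :=
  ∀ ε : ℝ, 0 < ε → ∃ r : ℝ, ∀ᶠ t : ℕ in atTop,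
    ‖H103.mS₁ ν hα {γ | r < G2 (q γ) ∧ r < G2 (ct (q γ))} (pic hν hα (b ^ t) (Om ν Λ))‖ ≤ ε

variable {J : Type} [Fintype J] [DecidableEq J] {k : Type} [NontriviallyNormedField k]
  [ProperSpace k] {N : J → ℕ} {ι : ∀ j, GG k (N j) →* E} {a a' : ∀ j, E →* PG k (N j + 1)}
  {w : J → kˣ} {q : ∀ j, Γ → GG k (N j)}

/-- **Both families of legs, from the positions.** -/
theorem exP_of [MeasurableSpace k] [BorelSpace k] {μ : Measure k} [μ.IsAddHaarMeasure]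
    (hk : H933.LocK k) (hΛ : ∀ g : Λ, g ≠ 1 → Set.Infinite {y : Λ | ∃ h, y = h * g * h⁻¹})
    (hA : AdmP ι a a') (hcomm : ∀ i j, i ≠ j → ∀ g h, Commute (ι i g) (ι j h))
    (hw : ∀ j, ‖(w j : k)‖ < 1) (hz : ∀ j, Cz (w j) (ι j) (a j) (a' j))
    (hgap : ∀ j, H933.LeviGap (ι j (bw (w j)))) (hq : ∀ j, PH (q j))
    (fin : ∀ C : ℝ, {γ : Γ | ∀ j, nm (q j γ) ≤ C}.Finite)
    (inj : ∀ γ, (∀ j, sp k (N j + 1) (q j γ) = 1) → γ = 1)
    (nis : ∀ j d, 1 ≤ d → d ≤ N j → NIS fun (γ : Γ) (x : Gr k (Fin (N j + 1)) d) => q j γ • x)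
    (nis' : ∀ j d, 1 ≤ d → d ≤ N j →
      NIS fun (γ : Γ) (x : Gr k (Fin (N j + 1)) d) => ct (q j γ) • x)
    (hpos : ∀ (Br : ℝ → Set Γ) (τ : J → J), RG q Br →
      (∀ j, ∀ ε : ℝ, 0 < ε → ∃ r : ℝ, ∀ u ∈ Subgroup.zpowers (ι j (bw (w j))),
        msE hν hα u (Br r) ≤ ε) →
      Function.Bijective τ → (∀ i, N (τ i) = N i) →
      (∀ i (ξ : KK ν Λ) (ε : ℝ), 0 < ε → ∃ r : ℝ, ∀ v ∈ Subgroup.zpowers (ι i (bw (w i))),
        ‖H103.mS₁ ν hα {γ | ∃ j', j' ≠ τ i ∧ r < nm (q j' γ)} (pic hν hα v ξ)‖ ≤ ε) →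
      (∀ i (ε : ℝ), 0 < ε → ∃ r : ℝ, ∀ g : GG k (N i),
        ‖H103.mS₁ ν hα {γ | ∃ j', j' ≠ τ i ∧ r < nm (q j' γ)}
          (pic hν hα (ι i g) (Om ν Λ))‖ ≤ ε) →
      ∀ i, HPos hν hα (q (τ i)) (ι i (bw (w i))) ∧ HPos hν hα (q (τ i)) (ι i (bw (w i)))⁻¹)
    (hne : Nonempty J) :
    ∃ (m₁ m₂ : Set Γ → (KK ν Λ →L[ℂ] KK ν Λ)) (q₁ q₂ : ∀ j, Γ → GG k (N j))
      (E₁ F₁ E₂ F₂ : ∀ j, YY k (N j) → (CY k (N j) →⋆ₐ[ℂ] (KK ν Λ →L[ℂ] KK ν Λ))),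
      (∀ j, LegN μ (w j) (ι j) (a j) (a' j) (pic hν hα) (lam₁ ν α)
        (XX ν Λ ∪ Set.range (lam₂ ν α)) (Om ν Λ) m₁ (q₁ j) (ZP q₁ j) (E₁ j) (F₁ j)) ∧
      (∀ j, LegN μ (w j) (ι j) (a j) (a' j) (pic hν hα) (lam₂ ν α)
        (XX ν Λ ∪ Set.range (lam₁ ν α)) (Om ν Λ) m₂ (q₂ j) (ZP q₂ j) (E₂ j) (F₂ j)) ∧
      (∀ γ, (∀ j, sp k (N j + 1) (q₁ j γ) = 1) → γ = 1) ∧
      (∀ γ, (∀ j, sp k (N j + 1) (q₂ j γ) = 1) → γ = 1) ∧
      (∀ C : ℝ, {γ : Γ | ∀ j, nm (q₁ j γ) ≤ C}.Finite) ∧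
      (∀ C : ℝ, {γ : Γ | ∀ j, nm (q₂ j γ) ≤ C}.Finite) := by
  obtain ⟨j₀⟩ := hne
  haveI : Nonempty J := ⟨j₀⟩
  haveI : NoncompactSpace E := H859.ExB.noncpt (hA.adm j₀) (hw j₀)
  have hN2 : ∀ j, 2 ≤ N j := fun j => (hA.adm j).hN
  have hN1 : ∀ j, 1 ≤ N j := fun j => le_trans one_le_two (hN2 j)
  obtain ⟨Br, τ₀, hB, nrm, h1⟩ := exists_tau hν hα hΛ (fun j => hA.adm j) hcomm hw hz
    (fun _ => hk) hN1 le_rfl hq fin
  obtain ⟨τ, hτ, hτN, t1, t2⟩ := H584.Tau.tau_out (a := a) hν hΛ hα (fun _ => hk)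
    (fun j => hN1 j) (fun j => (hA.adm j).cι) (fun j => (hA.adm j).ca)
    (fun j => (hA.adm j).comp) hcomm hq fin (w := w)
    (fun j => H776.KW.kak_walls hk (w j) (hw j)) fun i => ⟨τ₀ i, h1 i⟩
  have hp := hpos Br τ hB nrm hτ hτN t1 t2
  obtain ⟨q', Ec, F, hL, hi, hf⟩ := leg_out (μ := fun _ => μ) (w := w) (ι := ι) (a := a) (a' := a')
    (π := pic hν hα) (lam := lam₁ ν α) (W := XX ν Λ ∪ Set.range (lam₂ ν α)) (Ω := Om ν Λ)
    (m := H103.mS₁ ν hα) fin inj ⟨τ, hτ, fun i =>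
      leg_pair hν hα hΛ (hA.adm i) (hw i) (hz i) (hgap i) hN1 hq fin (τ i) (hτN i)
        (hB.bb hN1 (τ i)) (hB.bb_ct hN1 (τ i)) (nrm i) (nis (τ i)) (nis' (τ i))
        (t1 i (Om ν Λ)) (hp i).1 (hp i).2⟩
  exact ⟨_, _, q', q', Ec, F, _, _, hL,
    fun j => H859.TwN.tw_legN (SD.tw_flK hν hα) (hL j), hi, hi, hf, hf⟩

end ex

/-! ### Products of groups `PSL_n(k)` -/

section ps

open Vale.Agent.P092.H515.St (IsLattice)

/-- **[P-HPOS]** the positions for the lattices of `∏ PSL_(N j + 1)(k)` -/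
def HPosPS (k : Type) [NontriviallyNormedField k] [ProperSpace k] : Prop :=
  ∀ {J : Type} [Fintype J] [DecidableEq J] [Nonempty J] (N : J → ℕ), (∀ j, 2 ≤ N j) →
    ∀ [MeasurableSpace (SNP.EP (fun _ : J => k) N)] [BorelSpace (SNP.EP (fun _ : J => k) N)]
      {Γ : Subgroup (SNP.EP (fun _ : J => k) N)} [DiscreteTopology Γ] [Countable Γ]
      [MeasurableSpace (SNP.EP (fun _ : J => k) N ⧸ Γ)]
      [BorelSpace (SNP.EP (fun _ : J => k) N ⧸ Γ)]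
      {ν : Measure (SNP.EP (fun _ : J => k) N ⧸ Γ)} [IsProbabilityMeasure ν]
      (hν : ∀ g : SNP.EP (fun _ : J => k) N, ν.map (fun x => g • x) = ν)
      (_ : IsLattice Γ) (_ : ∀ g : Γ, g ≠ 1 → Set.Infinite {y : Γ | ∃ h, y = h * g * h⁻¹})
      {Λ : Type} [Group Λ] [Countable Λ]
      (_ : ∀ g : Λ, g ≠ 1 → Set.Infinite {y : Λ | ∃ h, y = h * g * h⁻¹})
      {α : Γ →* (Ell2 Λ →L[ℂ] Ell2 Λ)} (hα : Frame α) (w : J → kˣ) (_ : ∀ j, ‖(w j : k)‖ < 1)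
      (Br : ℝ → Set Γ) (τ : J → J), RG (co Γ) Br →
      (∀ j, ∀ ε : ℝ, 0 < ε → ∃ r : ℝ, ∀ u ∈ Subgroup.zpowers
        (SNP.iP (fun _ : J => k) N j (bw (w j))), msE hν hα u (Br r) ≤ ε) →
      Function.Bijective τ → (∀ i, N (τ i) = N i) →
      (∀ i (ξ : KK ν Λ) (ε : ℝ), 0 < ε → ∃ r : ℝ, ∀ v ∈ Subgroup.zpowers
        (SNP.iP (fun _ : J => k) N i (bw (w i))),
        ‖H103.mS₁ ν hα {γ | ∃ j', j' ≠ τ i ∧ r < nm (co Γ j' γ)} (pic hν hα v ξ)‖ ≤ ε) →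
      (∀ i (ε : ℝ), 0 < ε → ∃ r : ℝ, ∀ g : GG k (N i),
        ‖H103.mS₁ ν hα {γ | ∃ j', j' ≠ τ i ∧ r < nm (co Γ j' γ)}
          (pic hν hα (SNP.iP (fun _ : J => k) N i g) (Om ν Λ))‖ ≤ ε) →
      ∀ i, HPos hν hα (co Γ (τ i)) (SNP.iP (fun _ : J => k) N i (bw (w i))) ∧
        HPos hν hα (co Γ (τ i)) (SNP.iP (fun _ : J => k) N i (bw (w i)))⁻¹

theorem comm_iP {J : Type} [DecidableEq J] (k : J → Type) [∀ j, NontriviallyNormedField (k j)]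
    (N : J → ℕ) {i j : J} (hij : i ≠ j) (g : GG (k i) (N i)) (h : GG (k j) (N j)) :
    Commute (SNP.iP k N i g) (SNP.iP k N j h) :=
  Pi.mulSingle_commute hij _ _

/-- **[P-EX]**, products of groups `PSL_n(k)`, from the positions. -/
theorem exPS_of {k : Type} [NontriviallyNormedField k] [ProperSpace k] [MeasurableSpace k]
    [BorelSpace k] {μ : Measure k} [μ.IsAddHaarMeasure] (hk : H933.LocK k) (hP : HPosPS k) :
    SNP.ExPS k μ := by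
  intro J _ _ N hN _ _ Γ _ _ _ _ ν _ hν hΓ hicc Λ _ _ hΛ α hα
  rcases isEmpty_or_nonempty J with hJ | hJ
  · exact ⟨fun j => isEmptyElim j, fun _ => 0, fun _ => 0, co Γ, co Γ, fun j => isEmptyElim j,
      fun j => isEmptyElim j, fun j => isEmptyElim j, fun j => isEmptyElim j,
      fun j => isEmptyElim j, fun j => isEmptyElim j, inj_co Γ, inj_co Γ, fin_co Γ, fin_co Γ⟩
  · obtain ⟨c, h0, h1⟩ := NormedField.exists_norm_lt_one k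
    obtain ⟨m₁, m₂, q₁, q₂, E₁, F₁, E₂, F₂, h⟩ := exP_of (μ := μ) hν hα hk hΛ
      (SNP.admP_PS (fun _ : J => k) N (fun _ => hk) hN)
      (fun i j hij g h => comm_iP (fun _ : J => k) N hij g h)
      (w := fun _ => Units.mk0 c (norm_pos_iff.1 h0)) (q := co Γ) (fun _ => h1)
      (fun j => cz_pi j (cz_psl _ le_rfl (ad0_of (H387.Ad.adm_psl hk (hN j) _ le_rfl)) _))
      (fun j => H725.SN.leviGap_PS (fun _ => hk) hN _ j _) (fun j => ph_co Γ j) (fin_co Γ)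
      (inj_co Γ) (fun j d h1 h2 => nis_co Γ hΓ.covol j h1 h2)
      (fun j d h1 h2 => nis_co' Γ hΓ.covol j h1 h2)
      (fun Br τ => hP N hN hν hΓ hicc hΛ hα _ (fun _ => h1) Br τ) hJ
    exact ⟨_, m₁, m₂, q₁, q₂, E₁, F₁, E₂, F₂, h⟩

end ps

end Vale.Agent.P092.H305.PX
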