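import Vale.Agent.P092.H305.PX.Ex
import Vale.Agent.P092.H515.HPos3

/-!
P092, Team N, products (helper305): **[P-EX]** is a theorem, by the positions of helper515
(`H515/HPos3`).
-/

set_option linter.all false

open scoped InnerProductSpace ENNReal LinearAlgebra.Projectivization
open Filter Topology ContinuousLinearMap MeasureTheory TopologicalSpace

namespace Vale.Agent.P092.H305.PX

open Vale.Agent.P092.SN (Adm)

/-- **[P-HPOS]** for products of groups `PSL_n(k)`. -/
theorem hposPS {k : Type} [NontriviallyNormedField k] [ProperSpace k] (hk : H933.LocK k) :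
    HPosPS k := by
  intro J _ _ hJ N hN _ _ Γ _ _ _ _ ν _ hν _ _ Λ _ _ hΛ α hα w hw Br τ _ _ _ hτN _ t2 i
  have hA := SNP.admP_PS (fun _ : J => k) N (fun _ => hk) hN
  haveI : NoncompactSpace (SNP.EP (fun _ : J => k) N) := H859.ExB.noncpt (hA.adm i) (hw i)
  refine ⟨fun ε hε => ?_, fun ε hε => ?_⟩
  · exact H515.HP.hpos_P hν hΛ hα (fun _ => hk) (fun _ => hk) hN (fun j => (hA.adm j).cι)
      (fun j => (hA.adm j).ca) (fun j => (hA.adm j).comp) (fun j => ph_co Γ j) (fin_co Γ) hw hτN
      t2 i (Or.inl rfl) hε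
  · exact H515.HP.hpos_P hν hΛ hα (fun _ => hk) (fun _ => hk) hN (fun j => (hA.adm j).cι)
      (fun j => (hA.adm j).ca) (fun j => (hA.adm j).comp) (fun j => ph_co Γ j) (fin_co Γ) hw hτN
      t2 i (Or.inr rfl) hε

/-- **[P-EX]**, products of groups `PSL_n(k)`. -/
theorem exPS {k : Type} [NontriviallyNormedField k] [ProperSpace k] [MeasurableSpace k]
    [BorelSpace k] {μ : Measure k} [μ.IsAddHaarMeasure] (hk : H933.LocK k) : SNP.ExPS k μ :=
  exPS_of hk (hposPS hk)

end Vale.Agent.P092.H305.PX
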