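import Vale.Agent.P092.SN.Defs

/-!
P092, Team N, products (helper305): a leg does not change if the family `Z` of subsets of `Γ` is
replaced by a comparable one.
-/

set_option linter.all false

open scoped InnerProductSpace ENNReal LinearAlgebra.Projectivization
open Filter Topology ContinuousLinearMap MeasureTheory TopologicalSpace

namespace Vale.Agent.P092.H305.PX

open Vale.Agent.P092.SN
open Vale.Agent.P092.SD (Ms UC)
open Vale.Agent.P092.RC (GG PG YY y0 ct)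

section ms

variable {Γ K : Type} [Group Γ] [NormedAddCommGroup K] [InnerProductSpace ℂ K] [CompleteSpace K]
  {lam : Γ →* (K →L[ℂ] K)} {W : Set (K →L[ℂ] K)} {Ω : K} {m : Set Γ → (K →L[ℂ] K)}

theorem ms_le (h : Ms lam W Ω m) (S : Set Γ) (ξ : K) : ‖m S ξ‖ ≤ ‖ξ‖ := by
  have h1 : m S * m S = m S := by rw [← h.inf, Set.inter_self]
  have h2 : ⟪m S ξ, m S ξ⟫_ℂ = ⟪ξ, m S ξ⟫_ℂ := by
    conv_lhs => rw [← h.adj S]
    rw [ContinuousLinearMap.adjoint_inner_left]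
    have h3 : m S (m S ξ) = m S ξ := by
      change (m S * m S) ξ = m S ξ
      rw [h1]
    rw [h.adj S, h3]
  by_cases h0 : ‖m S ξ‖ = 0
  · rw [h0]
    exact norm_nonneg _
  · have h4 : ‖m S ξ‖ * ‖m S ξ‖ ≤ ‖ξ‖ * ‖m S ξ‖ := by
      have h5 : ‖⟪m S ξ, m S ξ⟫_ℂ‖ = ‖m S ξ‖ * ‖m S ξ‖ := by
        rw [inner_self_eq_norm_sq_to_K, norm_pow, sq]
        simp
      rw [← h5, h2]
      exact norm_inner_le_norm _ _
    exact le_of_mul_le_mul_right h4 (lt_of_le_of_ne (norm_nonneg _) (Ne.symm h0))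

theorem ms_mono (h : Ms lam W Ω m) {S T : Set Γ} (hST : S ⊆ T) (ξ : K) : ‖m S ξ‖ ≤ ‖m T ξ‖ := by
  have h1 : m S = m S * m T := by rw [← h.inf, Set.inter_eq_left.2 hST]
  rw [h1]
  exact ms_le h S (m T ξ)

end ms

section leg

variable {k : Type} [NontriviallyNormedField k] [ProperSpace k] {N : ℕ} {E Γ K : Type} [Group E]
  [TopologicalSpace E] [Group Γ] [NormedAddCommGroup K] [InnerProductSpace ℂ K] [CompleteSpace K]
  {w : kˣ} {ι : GG k N →* E} {a a' : E →* PG k (N + 1)} {π : E →* (K →L[ℂ] K)}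
  {lam : Γ →* (K →L[ℂ] K)} {W : Set (K →L[ℂ] K)} {Ω : K} {m : Set Γ → (K →L[ℂ] K)}
  {q : Γ → GG k N} {Z Z' : ℝ → Set Γ}

theorem NW.mono {R R' : ℝ} (h : R ≤ R') {g : GG k N} (hg : NW R g) : NW R' g :=
  hg.trans (mul_le_mul_of_nonneg_right h (norm_nonneg _))

theorem nwa_mono {R R' T : ℝ} {A : Set (YY k N)} (h : R ≤ R') (hZ : Z R ⊆ Z' R') :
    NWA q Z R T A ⊆ NWA q Z' R' T A := fun _ hγ => ⟨hZ hγ.1, NW.mono h hγ.2.1, hγ.2.2⟩

theorem ud_mono {S S' : Set Γ} (h : UD q S') (hS : S ⊆ S') : UD q S := fun C => by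
  obtain ⟨M, hM⟩ := h C
  exact ⟨M, fun T hT => hM T fun γ hγ => hS (hT γ hγ)⟩

/-- a common bound -/
theorem exists_ge (hz : ∀ R, ∃ R', Z R ⊆ Z' R') (hm : Monotone Z') (R : ℝ) :
    ∃ R', R ≤ R' ∧ Z R ⊆ Z' R' := by
  obtain ⟨R', h⟩ := hz R
  exact ⟨max R R', le_max_left _ _, h.trans (hm (le_max_right _ _))⟩

theorem nws_change (hM : Ms lam W Ω m) (hz : ∀ R, ∃ R', Z R ⊆ Z' R') (hm : Monotone Z')
    (h : NWS w ι π Ω m q Z) : NWS w ι π Ω m q Z' := by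
  intro g ε hε
  obtain ⟨R, hR⟩ := h g ε hε
  obtain ⟨R', h1, h2⟩ := exists_ge hz hm R
  refine ⟨R', fun t => (ms_mono hM ?_ _).trans (hR t)⟩
  intro γ hγ hγ'
  exact hγ ⟨h2 hγ'.1, NW.mono h1 hγ'.2⟩

theorem efam_change (hM : Ms lam W Ω m) (hz : ∀ R, ∃ R', Z R ⊆ Z' R') (hm : Monotone Z')
    {Ec : YY k N → (CY k N →⋆ₐ[ℂ] (K →L[ℂ] K))} (h : EFam w ι a π lam W m q Z Ec) :
    EFam w ι a π lam W m q Z' Ec where
  cm := h.cm
  cov := h.cov
  pcov := h.pcov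
  dom g u A hA hu ζ ε hε := by
    obtain ⟨R, hR⟩ := h.dom g u A hA hu ζ ε hε
    obtain ⟨R', h1, h2⟩ := exists_ge hz hm R
    refine ⟨R', fun T hT => (hR T hT).mono fun t ht => ht.trans ?_⟩
    exact add_le_add_left (mul_le_mul_of_nonneg_left (ms_mono hM (nwa_mono h1 h2) _)
      (norm_nonneg _)) _
  agr := h.agr

/-- **Change of the family `Z`.** -/
theorem legN_change [MeasurableSpace k] {μ : Measure k}
    {Ec F : YY k N → (CY k N →⋆ₐ[ℂ] (K →L[ℂ] K))} (h : LegN μ w ι a a' π lam W Ω m q Z Ec F)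
    (hm : Monotone Z') (hz : ∀ R, ∃ R', Z R ⊆ Z' R') (hz' : ∀ R, ∃ R', Z' R ⊆ Z R') :
    LegN μ w ι a a' π lam W Ω m q Z' Ec F where
  adm := h.adm
  hw := h.hw
  pic := h.pic
  ms := h.ms
  uc := h.uc
  ph := h.ph
  zm := hm
  ud R := by
    obtain ⟨R', h1⟩ := hz' R
    exact ud_mono (h.ud R') h1
  orb := h.orb
  orb' := h.orb'
  size := h.size
  size' := h.size'
  nws := nws_change h.ms hz hm h.nws
  nws' := nws_change h.ms hz hm h.nws'
  e := efam_change h.ms hz hm h.e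
  f := efam_change h.ms hz hm h.f
  nis := h.nis

end leg

end Vale.Agent.P092.H305.PX
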