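import Vale.Agent.P092.H305.PX.Leg
import Vale.Agent.P092.SNP.Blocks
import Vale.Agent.P092.H584.Cast2

/-!
P092, Team N, products (helper305): from the legs of the factors `i` with the target coordinates
`τ i` to the family of legs in the letters of `SNP/Blocks` (`τ`, the casts and the types are
absorbed in `q`).
-/

set_option linter.all false

open scoped InnerProductSpace ENNReal LinearAlgebra.Projectivization
open Filter Topology ContinuousLinearMap MeasureTheory TopologicalSpace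

namespace Vale.Agent.P092.H305.PX

open Vale.Agent.P092.SN
open Vale.Agent.P092.SNP (AdmP ZP)
open Vale.Agent.P092.SD (Ms UC)
open Vale.Agent.P092.RC (GG PG YY y0 ct)
open Vale.Agent.P092.H35 (sp)

section cmp

/-- the letters `q` and `q'` have comparable sizes, and the kernel of `q'` is in the kernel
of `q` -/
structure Cmp {Γ k k' : Type} [NontriviallyNormedField k] [NontriviallyNormedField k']
    {a b : ℕ} (q : Γ → GG k a) (q' : Γ → GG k' b) : Prop where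
  le : ∀ C : ℝ, ∃ C' : ℝ, ∀ γ, nm (q γ) ≤ C → nm (q' γ) ≤ C'
  ge : ∀ C : ℝ, ∃ C' : ℝ, ∀ γ, nm (q' γ) ≤ C → nm (q γ) ≤ C'
  ker : ∀ γ, sp k' (b + 1) (q' γ) = 1 → sp k (a + 1) (q γ) = 1

theorem Cmp.refl {Γ k : Type} [NontriviallyNormedField k] {a : ℕ} (q : Γ → GG k a) : Cmp q q :=
  ⟨fun C => ⟨C, fun _ h => h⟩, fun C => ⟨C, fun _ h => h⟩, fun _ h => h⟩

theorem Cmp.trans {Γ k k' k'' : Type} [NontriviallyNormedField k] [NontriviallyNormedField k']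
    [NontriviallyNormedField k''] {a b c : ℕ} {q : Γ → GG k a} {q' : Γ → GG k' b}
    {q'' : Γ → GG k'' c} (h : Cmp q q') (h' : Cmp q' q'') : Cmp q q'' where
  le C := by
    obtain ⟨C1, h1⟩ := h.le C
    obtain ⟨C2, h2⟩ := h'.le C1
    exact ⟨C2, fun γ hγ => h2 γ (h1 γ hγ)⟩
  ge C := by
    obtain ⟨C1, h1⟩ := h'.ge C
    obtain ⟨C2, h2⟩ := h.ge C1
    exact ⟨C2, fun γ hγ => h2 γ (h1 γ hγ)⟩
  ker γ hγ := h.ker γ (h'.ker γ hγ)

open Vale.Agent.P092.H584.Cast in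
theorem cmp_cast {Γ k : Type} [NontriviallyNormedField k] {a b : ℕ} (e : a = b)
    (q : Γ → GG k a) : Cmp q fun γ => castG e (q γ) where
  le C := ⟨C, fun γ h => by rwa [nm_cast]⟩
  ge C := ⟨C, fun γ h => by rwa [nm_cast] at h⟩
  ker γ h := (sp_cast_iff e _).1 h

open Vale.Agent.P092.H584.Cast in
theorem cmp_du {Γ k : Type} [NontriviallyNormedField k] {a : ℕ} (t : Bool)
    (q : Γ → GG k a) : Cmp q fun γ => du t (q γ) where
  le C := ⟨cb a C, fun γ h => nm_du_le t _ h⟩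
  ge C := ⟨cb a C, fun γ h => nm_of_du t _ h⟩
  ker γ h := (sp_du_iff t _).1 h

open Vale.Agent.P092.H584.Cast in
theorem cmp_ct {Γ k : Type} [NontriviallyNormedField k] {a : ℕ} (q : Γ → GG k a) :
    Cmp q fun γ => ct (q γ) := cmp_du true q

theorem exists_max {I : Type} [Fintype I] (C : I → ℝ) : ∃ M : ℝ, ∀ i, C i ≤ M :=
  ⟨∑ i, |C i|, fun i => (le_abs_self _).trans
    (Finset.single_le_sum (f := fun i => |C i|) (fun i _ => abs_nonneg _) (Finset.mem_univ i))⟩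

variable {Γ J : Type} [Fintype J] {k : J → Type} [∀ j, NontriviallyNormedField (k j)] {N : J → ℕ}
  {τ : J → J} {q q' : ∀ j, Γ → GG (k j) (N j)}

theorem ZP_mono (q : ∀ j, Γ → GG (k j) (N j)) (i : J) : Monotone (ZP q i) :=
  fun _ _ h _ hγ j hj => (hγ j hj).trans h

theorem ZP_le (hτ : Function.Bijective τ) (hc : ∀ i, Cmp (q (τ i)) (q' i)) (i : J) (R : ℝ) :
    ∃ R', ZP q (τ i) R ⊆ ZP q' i R' := by
  choose C hC using fun l => (hc l).le R
  obtain ⟨M, hM⟩ := exists_max C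
  exact ⟨M, fun γ hγ l hl => (hC l γ (hγ (τ l) fun h => hl (hτ.1 h))).trans (hM l)⟩

theorem ZP_ge (hτ : Function.Bijective τ) (hc : ∀ i, Cmp (q (τ i)) (q' i)) (i : J) (R : ℝ) :
    ∃ R', ZP q' i R ⊆ ZP q (τ i) R' := by
  choose C hC using fun l => (hc l).ge R
  obtain ⟨M, hM⟩ := exists_max C
  refine ⟨M, fun γ hγ j hj => ?_⟩
  obtain ⟨l, rfl⟩ := hτ.2 j
  exact (hC l γ (hγ l fun h => hj (by rw [h]))).trans (hM l)

theorem fin_cmp (hτ : Function.Bijective τ) (hc : ∀ i, Cmp (q (τ i)) (q' i))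
    (hf : ∀ C : ℝ, {γ | ∀ j, nm (q j γ) ≤ C}.Finite) (C : ℝ) :
    {γ | ∀ j, nm (q' j γ) ≤ C}.Finite := by
  choose D hD using fun l => (hc l).ge C
  obtain ⟨M, hM⟩ := exists_max D
  refine (hf M).subset fun γ hγ j => ?_
  obtain ⟨l, rfl⟩ := hτ.2 j
  exact (hD l γ (hγ l)).trans (hM l)

theorem inj_cmp [One Γ] (hτ : Function.Bijective τ) (hc : ∀ i, Cmp (q (τ i)) (q' i))
    (hi : ∀ γ, (∀ j, sp (k j) (N j + 1) (q j γ) = 1) → γ = 1) (γ : Γ)
    (h : ∀ j, sp (k j) (N j + 1) (q' j γ) = 1) : γ = 1 := by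
  refine hi γ fun j => ?_
  obtain ⟨l, rfl⟩ := hτ.2 j
  exact (hc l).ker γ (h l)

end cmp

section legs

variable {J : Type} [Fintype J] {k : J → Type} [∀ j, NontriviallyNormedField (k j)]
  [∀ j, ProperSpace (k j)] [∀ j, MeasurableSpace (k j)] {N : J → ℕ} {E Γ K : Type} [Group E]
  [TopologicalSpace E] [Group Γ] [NormedAddCommGroup K] [InnerProductSpace ℂ K] [CompleteSpace K]
  {μ : ∀ j, Measure (k j)} {w : ∀ j, (k j)ˣ} {ι : ∀ j, GG (k j) (N j) →* E}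
  {a a' : ∀ j, E →* PG (k j) (N j + 1)} {π : E →* (K →L[ℂ] K)} {lam : Γ →* (K →L[ℂ] K)}
  {W : Set (K →L[ℂ] K)} {Ω : K} {m : Set Γ → (K →L[ℂ] K)} {τ : J → J}
  {q q' : ∀ j, Γ → GG (k j) (N j)}
  {Ec F : ∀ j, YY (k j) (N j) → (CY (k j) (N j) →⋆ₐ[ℂ] (K →L[ℂ] K))}

/-- **The family of legs.** -/
theorem legs_of (hτ : Function.Bijective τ) (hc : ∀ i, Cmp (q (τ i)) (q' i))
    (hl : ∀ i, LegN (μ i) (w i) (ι i) (a i) (a' i) π lam W Ω m (q' i) (ZP q (τ i)) (Ec i) (F i))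
    (i : J) : LegN (μ i) (w i) (ι i) (a i) (a' i) π lam W Ω m (q' i) (ZP q' i) (Ec i) (F i) :=
  legN_change (hl i) (ZP_mono q' i) (ZP_le hτ hc i) (ZP_ge hτ hc i)

/-- **One leg of the product**, output form: `leg` = the legs with the coordinates `q (τ i)` of the
target, cast and dualised. -/
theorem leg_out {q : ∀ j, Γ → GG (k j) (N j)}
    (hf : ∀ C : ℝ, {γ | ∀ j, nm (q j γ) ≤ C}.Finite)
    (hi : ∀ γ, (∀ j, sp (k j) (N j + 1) (q j γ) = 1) → γ = 1)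
    (h : ∃ τ : J → J, Function.Bijective τ ∧ ∀ i, ∃ (q' : Γ → GG (k i) (N i))
      (Ec F : YY (k i) (N i) → (CY (k i) (N i) →⋆ₐ[ℂ] (K →L[ℂ] K))), Cmp (q (τ i)) q' ∧
        LegN (μ i) (w i) (ι i) (a i) (a' i) π lam W Ω m q' (ZP q (τ i)) Ec F) :
    ∃ (q' : ∀ j, Γ → GG (k j) (N j))
      (E₁ F₁ : ∀ j, YY (k j) (N j) → (CY (k j) (N j) →⋆ₐ[ℂ] (K →L[ℂ] K))),
      (∀ j, LegN (μ j) (w j) (ι j) (a j) (a' j) π lam W Ω m (q' j) (ZP q' j) (E₁ j) (F₁ j)) ∧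
      (∀ γ, (∀ j, sp (k j) (N j + 1) (q' j γ) = 1) → γ = 1) ∧
      ∀ C : ℝ, {γ : Γ | ∀ j, nm (q' j γ) ≤ C}.Finite := by
  obtain ⟨τ, hτ, h1⟩ := h
  choose q' E₁ F₁ hc hl using h1
  exact ⟨q', E₁, F₁, fun j => legs_of hτ hc hl j, inj_cmp hτ hc hi, fin_cmp hτ hc hf⟩

end legs

end Vale.Agent.P092.H305.PX
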