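import Vale.Agent.P092.H305.PX.Legs
import Vale.Agent.P092.H859.ExN
import Vale.Agent.P092.H337.NGh

/-!
P092, Team N, products (helper305): the leg of one factor of the source and one coordinate `j` of
the target, in the concrete picture over any source group: `leg_first` of `H859/ExN` with the size
`rho q j` of the other coordinates.
-/

set_option linter.all false

open scoped InnerProductSpace ENNReal LinearAlgebra.Projectivization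
open Filter Topology ContinuousLinearMap MeasureTheory TopologicalSpace

namespace Vale.Agent.P092.H305.PX

open Vale.Agent.P092.H160 Vale.Agent.P092.SR
open Vale.Agent.P092.H859.TgN (Tg g1 g2)
open Vale.Agent.P092.H859.ExN
open Vale.Agent.P092.H859.CL (BB)
open Vale.Agent.P092.H337.NG (rho rho_of_nm ZZ_of_rho rho_of_ZZ siz_rho sizS_rho fin_rho G2)
open Vale.Agent.P092.RC (Cm TRN Moore GG PG YY y0 ct KK pic lam₁ lam₂ XX Om)
open Vale.Agent.P092.SN (CY CG nm NW Att act PH UD NWA NWS EFam Adm bw un LegN)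
open Vale.Agent.P092.SNP (ZP)
open Vale.Agent.P092.H100.Gr (Gr)
open Vale.Agent.P092.H76.Pur (NIS)
open Vale.Agent.P092.H368.SN (Cz)
open Vale.Agent.P092.H805.RowN (msE)

theorem ms_or {Γ K : Type} [Group Γ] [NormedAddCommGroup K] [InnerProductSpace ℂ K]
    [CompleteSpace K] {lam : Γ →* (K →L[ℂ] K)} {W : Set (K →L[ℂ] K)} {Ω : K}
    {m : Set Γ → (K →L[ℂ] K)} (h : SD.Ms lam W Ω m) {S A B : Set Γ} (hS : S ⊆ A ∪ B) (ξ : K) :
    ‖m S ξ‖ ≤ ‖m A ξ‖ + ‖m B ξ‖ := by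
  have h1 : A ∪ B = A ∪ (B \ A) := by rw [Set.union_diff_self]
  have h2 : m (A ∪ B) ξ = m A ξ + m (B \ A) ξ := by
    rw [h1]
    exact H790.CT.ms_union h (Set.disjoint_sdiff_right) ξ
  refine (ms_mono h hS ξ).trans ?_
  rw [h2]
  exact (norm_add_le _ _).trans (add_le_add_right (ms_mono h Set.diff_subset ξ) _)

section tgt

variable {J : Type} [Fintype J] [DecidableEq J] {k : J → Type}
  [∀ j, NontriviallyNormedField (k j)] {N : J → ℕ} {Γ : Type} [Group Γ]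
  {q : ∀ j, Γ → GG (k j) (N j)}

/-- the target data of the coordinate `j` -/
theorem tg_rho (hN : ∀ j, 1 ≤ N j) (hq : ∀ j, PH (q j))
    (fin : ∀ C : ℝ, {γ | ∀ j, nm (q j γ) ≤ C}.Finite) (j : J) : Tg (q j) (rho q j) where
  ph := hq j
  siz := siz_rho hN hq j
  inv := (sizS_rho hN hq j).inv
  fin := fin_rho hN fin j

end tgt

section pair

variable {J : Type} [Fintype J] [DecidableEq J] {k : Type} [NontriviallyNormedField k]
  [ProperSpace k] {N : J → ℕ} {n : ℕ}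
  {E : Type} [Group E] [TopologicalSpace E] [IsTopologicalGroup E] [LocallyCompactSpace E]
  [SecondCountableTopology E] [T2Space E] [NoncompactSpace E] [MeasurableSpace E] [BorelSpace E]
  {Γ : Subgroup E} [DiscreteTopology Γ] [Countable Γ] [MeasurableSpace (E ⧸ Γ)]
  [BorelSpace (E ⧸ Γ)] {ν : Measure (E ⧸ Γ)} [IsProbabilityMeasure ν]
  (hν : ∀ g : E, ν.map (fun x => g • x) = ν)
  {Λ : Type} [Group Λ] [Countable Λ]
  (hΛ : ∀ g : Λ, g ≠ 1 → Set.Infinite {y : Λ | ∃ h, y = h * g * h⁻¹})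
  {α : Γ →* (Ell2 Λ →L[ℂ] Ell2 Λ)} (hα : Frame α)
  {ι : GG k n →* E} {a a' : E →* PG k (n + 1)} {w : kˣ} {q : ∀ j, Γ → GG k (N j)}
  {Br : ℝ → Set Γ}

/-- the positions, from the tightness of the other coordinates and the positions in the
coordinate `j` -/
theorem posO_of (hN : ∀ j, 1 ≤ N j) (j : J) {b : E}
    (tight : ∀ ε : ℝ, 0 < ε → ∃ r : ℝ, ∀ v ∈ Subgroup.zpowers b,
      ‖H103.mS₁ ν hα {γ | ∃ j', j' ≠ j ∧ r < nm (q j' γ)} (pic hν hα v (Om ν Λ))‖ ≤ ε)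
    (hpos : ∀ ε : ℝ, 0 < ε → ∃ r : ℝ, ∀ᶠ t : ℕ in atTop,
      ‖H103.mS₁ ν hα {γ | r < G2 (q j γ) ∧ r < G2 (ct (q j γ))}
        (pic hν hα (b ^ t) (Om ν Λ))‖ ≤ ε) :
    PosO hν hα (g2 (q j) (rho q j)) (g2 (fun γ => ct (q j γ)) (rho q j)) b := by
  intro ε hε
  obtain ⟨r1, h1⟩ := hpos (ε / 2) (half_pos hε)
  obtain ⟨r2, h2⟩ := tight (ε / 2) (half_pos hε)
  obtain ⟨r3, h3⟩ := rho_of_nm (q := q) hN j r2
  refine ⟨max r1 r3, h1.mono fun t ht => ?_⟩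
  have h4 := h2 (b ^ t) (Subgroup.pow_mem _ (Subgroup.mem_zpowers b) t)
  refine (ms_or (H103.ms₁ hα) (A := {γ | r1 < G2 (q j γ) ∧ r1 < G2 (ct (q j γ))})
    (B := {γ | ∃ j', j' ≠ j ∧ r2 < nm (q j' γ)}) ?_ _).trans
    ((add_le_add ht h4).trans (le_of_eq (add_halves ε)))
  rintro γ ⟨h5, h6⟩
  by_cases hγ : ∀ j', j' ≠ j → nm (q j' γ) ≤ r2
  · left
    have h7 := h3 γ hγ
    have h8 : rho q j γ ≤ max r1 r3 := h7.trans (le_max_right _ _)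
    have h5' : max r1 r3 < max (G2 (q j γ)) (rho q j γ) := h5
    have h6' : max r1 r3 < max (G2 (ct (q j γ))) (rho q j γ) := h6
    refine ⟨?_, ?_⟩
    · rcases lt_max_iff.1 h5' with h9 | h9
      · exact (le_max_left _ _).trans_lt h9
      · exact absurd h9 (not_lt.2 h8)
    · rcases lt_max_iff.1 h6' with h9 | h9
      · exact (le_max_left _ _).trans_lt h9
      · exact absurd h9 (not_lt.2 h8)
  · right
    push Not at hγ
    obtain ⟨j', h7, h8⟩ := hγ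
    exact ⟨j', h7, h8⟩

/-- **The leg of a factor of the source and the coordinate `j` of the target.** -/
theorem leg_pair [MeasurableSpace k] [BorelSpace k] {μ : Measure k} [μ.IsAddHaarMeasure]
    (hΛ : ∀ g : Λ, g ≠ 1 → Set.Infinite {y : Λ | ∃ h, y = h * g * h⁻¹})
    (had : Adm ι a a') (hw : ‖(w : k)‖ < 1) (hz : Cz w ι a a')
    (hgap : H933.LeviGap (ι (bw w))) (hN : ∀ j, 1 ≤ N j) (hq : ∀ j, PH (q j))
    (fin : ∀ C : ℝ, {γ | ∀ j, nm (q j γ) ≤ C}.Finite) (j : J) (e : N j = n)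
    (hB₁ : ∀ r, ∃ r', BB (g1 (q j)) (g2 (q j) (rho q j)) r' ⊆ Br r)
    (hB₂ : ∀ r, ∃ r', BB (g1 fun γ => ct (q j γ)) (g2 (fun γ => ct (q j γ)) (rho q j)) r' ⊆ Br r)
    (nrm : ∀ ε : ℝ, 0 < ε → ∃ r, ∀ u ∈ Subgroup.zpowers (ι (bw w)), msE hν hα u (Br r) ≤ ε)
    (nis : ∀ d, 1 ≤ d → d ≤ N j → NIS fun (γ : Γ) (x : Gr k (Fin (N j + 1)) d) => q j γ • x)
    (nis' : ∀ d, 1 ≤ d → d ≤ N j →
      NIS fun (γ : Γ) (x : Gr k (Fin (N j + 1)) d) => ct (q j γ) • x)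
    (tight : ∀ ε : ℝ, 0 < ε → ∃ r : ℝ, ∀ v ∈ Subgroup.zpowers (ι (bw w)),
      ‖H103.mS₁ ν hα {γ | ∃ j', j' ≠ j ∧ r < nm (q j' γ)} (pic hν hα v (Om ν Λ))‖ ≤ ε)
    (hpos : ∀ ε : ℝ, 0 < ε → ∃ r : ℝ, ∀ᶠ t : ℕ in atTop,
      ‖H103.mS₁ ν hα {γ | r < G2 (q j γ) ∧ r < G2 (ct (q j γ))}
        (pic hν hα (ι (bw w) ^ t) (Om ν Λ))‖ ≤ ε)
    (hpos' : ∀ ε : ℝ, 0 < ε → ∃ r : ℝ, ∀ᶠ t : ℕ in atTop,
      ‖H103.mS₁ ν hα {γ | r < G2 (q j γ) ∧ r < G2 (ct (q j γ))}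
        (pic hν hα ((ι (bw w))⁻¹ ^ t) (Om ν Λ))‖ ≤ ε) :
    ∃ (q' : Γ → GG k n) (Ec F : YY k n → (CY k n →⋆ₐ[ℂ] (KK ν Λ →L[ℂ] KK ν Λ))),
      Cmp (q j) q' ∧
      LegN μ w ι a a' (pic hν hα) (lam₁ ν α) (XX ν Λ ∪ Set.range (lam₂ ν α)) (Om ν Λ)
        (H103.mS₁ ν hα) q' (ZP q j) Ec F := by
  subst e
  have pos := posO_of hν hα hN j tight hpos
  have pos' := posO_of hν hα (b := (ι (bw w))⁻¹) hN j
    (by rw [Subgroup.zpowers_inv]; exact tight) hpos'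
  obtain ⟨q', hq', Ec, F, hL⟩ := leg_first (μ := μ) hν hα hΛ had hw hz (tg_rho hN hq fin j) hB₁ hB₂
    nrm hgap nis nis' pos pos'
  refine ⟨q', Ec, F, ?_, legN_change hL (ZP_mono q j) (fun R => ?_) fun R => ?_⟩
  · rcases hq' with rfl | rfl
    · exact Cmp.refl _
    · exact cmp_ct _
  · obtain ⟨R', h⟩ := ZZ_of_rho (q := q) hN j R
    exact ⟨R', fun γ hγ => h γ hγ⟩
  · obtain ⟨R', h⟩ := rho_of_ZZ (q := q) hN j R
    exact ⟨R', fun γ hγ => h γ hγ⟩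

end pair

end Vale.Agent.P092.H305.PX
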