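import Vale.Agent.P092.H305.PX.XLeg
import Vale.Agent.P092.H305.PX.Fin
import Vale.Agent.P092.H859.SXM
import Vale.Agent.P092.SX.PB1

/-!
P092, Team N, products with mixed fields (helper305), **[P-EX] in the letters of `SX`**, `t = 1`:
source fields `k j`, target fields `l j`, any source group `E`.
-/

set_option linter.all false

open scoped InnerProductSpace ENNReal LinearAlgebra.Projectivization
open Filter Topology ContinuousLinearMap MeasureTheory TopologicalSpace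

namespace Vale.Agent.P092.H305.PX

open Vale.Agent.P092.H160 Vale.Agent.P092.SR
open Vale.Agent.P092.H859.TgN (Tg g1 g2 ZZ)
open Vale.Agent.P092.H859.ExN (PosO)
open Vale.Agent.P092.H859.CL (BB)
open Vale.Agent.P092.H337.NG (rho rho_of_nm ZZ_of_rho rho_of_ZZ siz_rho sizS_rho fin_rho G2 RG
  exists_tau)
open Vale.Agent.P092.RC (Cm TRN Moore GG PG YY y0 ct KK pic lam₁ lam₂ XX Om)
open Vale.Agent.P092.SN (CY CG nm NW Att act PH UD NWA Adm bw un)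
open Vale.Agent.P092.SNP (ZP AdmP)
open Vale.Agent.P092.H100.Gr (Gr)
open Vale.Agent.P092.H76.Pur (NIS)
open Vale.Agent.P092.H368.SN (Cz)
open Vale.Agent.P092.H805.RowN (msE)
open Vale.Agent.P092.H35 (sp)
open Vale.Agent.P092.H725.SN (LegB2)

section pair

variable {J : Type} [Fintype J] [DecidableEq J] {kS : Type} [NontriviallyNormedField kS]
  [ProperSpace kS] {l : J → Type} [∀ j, NontriviallyNormedField (l j)] [∀ j, ProperSpace (l j)]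
  {N : J → ℕ} {n : ℕ}
  {E : Type} [Group E] [TopologicalSpace E] [IsTopologicalGroup E] [LocallyCompactSpace E]
  [SecondCountableTopology E] [T2Space E] [NoncompactSpace E] [MeasurableSpace E] [BorelSpace E]
  {Γ : Subgroup E} [DiscreteTopology Γ] [Countable Γ] [MeasurableSpace (E ⧸ Γ)]
  [BorelSpace (E ⧸ Γ)] {ν : Measure (E ⧸ Γ)} [IsProbabilityMeasure ν]
  (hν : ∀ g : E, ν.map (fun x => g • x) = ν)
  {Λ : Type} [Group Λ] [Countable Λ]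
  (hΛ : ∀ g : Λ, g ≠ 1 → Set.Infinite {y : Λ | ∃ h, y = h * g * h⁻¹})
  {α : Γ →* (Ell2 Λ →L[ℂ] Ell2 Λ)} (hα : Frame α)
  {ι : GG kS n →* E} {a a' : E →* PG kS (n + 1)} {w : kSˣ} {q : ∀ j, Γ → GG (l j) (N j)}
  {Br : ℝ → Set Γ}

/-- the positions, from the tightness of the other coordinates and the positions in the
coordinate `j` -/
theorem posOX_of (hN : ∀ j, 1 ≤ N j) (j : J) {b : E}
    (tight : ∀ ε : ℝ, 0 < ε → ∃ r : ℝ, ∀ v ∈ Subgroup.zpowers b,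
      ‖H103.mS₁ ν hα {γ | ∃ j', j' ≠ j ∧ r < nm (q j' γ)} (pic hν hα v (Om ν Λ))‖ ≤ ε)
    (hpos : ∀ ε : ℝ, 0 < ε → ∃ r : ℝ, ∀ᶠ t : ℕ in atTop,
      ‖H103.mS₁ ν hα {γ | r < G2 (q j γ) ∧ r < G2 (ct (q j γ))}
        (pic hν hα (b ^ t) (Om ν Λ))‖ ≤ ε) :
    PosO hν hα (g2 (q j) (rho q j)) (g2 (fun γ => ct (q j γ)) (rho q j)) b := by
  intro ε hε
  obtain ⟨r1, h1⟩ := hpos (ε / 2) (half_pos hε)
  obtain ⟨r2, h2⟩ := tight (ε / 2) (half_pos hε)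
  obtain ⟨r3, h3⟩ := rho_of_nm (q := q) hN j r2
  refine ⟨max r1 r3, h1.mono fun t ht => ?_⟩
  have h4 := h2 (b ^ t) (Subgroup.pow_mem _ (Subgroup.mem_zpowers b) t)
  refine (ms_or (H103.ms₁ hα) (A := {γ | r1 < G2 (q j γ) ∧ r1 < G2 (ct (q j γ))})
    (B := {γ | ∃ j', j' ≠ j ∧ r2 < nm (q j' γ)}) ?_ _).trans
    ((add_le_add ht h4).trans (le_of_eq (add_halves ε)))
  rintro γ ⟨h5, h6⟩
  by_cases hγ : ∀ j', j' ≠ j → nm (q j' γ) ≤ r2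
  · left
    have h7 := h3 γ hγ
    have h8 : rho q j γ ≤ max r1 r3 := h7.trans (le_max_right _ _)
    have h5' : max r1 r3 < max (G2 (q j γ)) (rho q j γ) := h5
    have h6' : max r1 r3 < max (G2 (ct (q j γ))) (rho q j γ) := h6
    refine ⟨?_, ?_⟩
    · rcases lt_max_iff.1 h5' with h9 | h9
      · exact (le_max_left _ _).trans_lt h9
      · exact absurd h9 (not_lt.2 h8)
    · rcases lt_max_iff.1 h6' with h9 | h9
      · exact (le_max_left _ _).trans_lt h9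
      · exact absurd h9 (not_lt.2 h8)
  · right
    push Not at hγ
    obtain ⟨j', h7, h8⟩ := hγ
    exact ⟨j', h7, h8⟩

/-- **The leg of a factor of the source and the coordinate `j` of the target**, two fields. -/
theorem leg_pairX [MeasurableSpace kS] {μ : Measure kS}
    (hΛ : ∀ g : Λ, g ≠ 1 → Set.Infinite {y : Λ | ∃ h, y = h * g * h⁻¹})
    (had : Adm ι a a') (hw : ‖(w : kS)‖ < 1) (hz : Cz w ι a a')
    (hN : ∀ j, 1 ≤ N j) (hq : ∀ j, PH (q j))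
    (fin : ∀ C : ℝ, {γ | ∀ j, nm (q j γ) ≤ C}.Finite) (j : J) (e : N j = n)
    (hL : ∀ q' : Γ → GG (l j) n, PH q' → LegB2 μ w ι (pic hν hα) (lam₁ ν α)
      (XX ν Λ ∪ Set.range (lam₂ ν α)) (Om ν Λ) (H103.mS₁ ν hα) q')
    (hB₁ : ∀ r, ∃ r', BB (g1 (q j)) (g2 (q j) (rho q j)) r' ⊆ Br r)
    (hB₂ : ∀ r, ∃ r', BB (g1 fun γ => ct (q j γ)) (g2 (fun γ => ct (q j γ)) (rho q j)) r' ⊆ Br r)
    (nrm : ∀ ε : ℝ, 0 < ε → ∃ r, ∀ u ∈ Subgroup.zpowers (ι (bw w)), msE hν hα u (Br r) ≤ ε)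
    (nis : ∀ d, 1 ≤ d → d ≤ N j → NIS fun (γ : Γ) (x : Gr (l j) (Fin (N j + 1)) d) => q j γ • x)
    (nis' : ∀ d, 1 ≤ d → d ≤ N j →
      NIS fun (γ : Γ) (x : Gr (l j) (Fin (N j + 1)) d) => ct (q j γ) • x)
    (tight : ∀ ε : ℝ, 0 < ε → ∃ r : ℝ, ∀ v ∈ Subgroup.zpowers (ι (bw w)),
      ‖H103.mS₁ ν hα {γ | ∃ j', j' ≠ j ∧ r < nm (q j' γ)} (pic hν hα v (Om ν Λ))‖ ≤ ε)
    (hpos : ∀ ε : ℝ, 0 < ε → ∃ r : ℝ, ∀ᶠ t : ℕ in atTop,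
      ‖H103.mS₁ ν hα {γ | r < G2 (q j γ) ∧ r < G2 (ct (q j γ))}
        (pic hν hα (ι (bw w) ^ t) (Om ν Λ))‖ ≤ ε)
    (hpos' : ∀ ε : ℝ, 0 < ε → ∃ r : ℝ, ∀ᶠ t : ℕ in atTop,
      ‖H103.mS₁ ν hα {γ | r < G2 (q j γ) ∧ r < G2 (ct (q j γ))}
        (pic hν hα ((ι (bw w))⁻¹ ^ t) (Om ν Λ))‖ ≤ ε) :
    ∃ (q' : Γ → GG (l j) n) (Ec F : YY kS n → (CY (l j) n →⋆ₐ[ℂ] (KK ν Λ →L[ℂ] KK ν Λ))),
      Cmp (q j) q' ∧
      SX.LegN μ w ι a a' (pic hν hα) (lam₁ ν α) (XX ν Λ ∪ Set.range (lam₂ ν α)) (Om ν Λ)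
        (H103.mS₁ ν hα) q' (ZP q j) Ec F := by
  subst e
  have pos := posOX_of hν hα hN j tight hpos
  have pos' := posOX_of hν hα (b := (ι (bw w))⁻¹) hN j
    (by rw [Subgroup.zpowers_inv]; exact tight) hpos'
  obtain ⟨q', hq', Ec, F, hL⟩ := H859.SXN.sx_leg_firstB (μ := μ) hν hα hΛ had hw hz
    (tg_rho hN hq fin j) hB₁ hB₂ nrm hL nis nis' pos pos'
  refine ⟨q', Ec, F, ?_, legX_change hL (ZP_mono q j) (fun R => ?_) fun R => ?_⟩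
  · rcases hq' with rfl | rfl
    · exact Cmp.refl _
    · exact cmp_ct _
  · obtain ⟨R', h⟩ := ZZ_of_rho (q := q) hN j R
    exact ⟨R', fun γ hγ => h γ hγ⟩
  · obtain ⟨R', h⟩ := rho_of_ZZ (q := q) hN j R
    exact ⟨R', fun γ hγ => h γ hγ⟩

end pair

section ex

variable {E : Type} [Group E] [TopologicalSpace E] [IsTopologicalGroup E] [LocallyCompactSpace E]
  [SecondCountableTopology E] [T2Space E] [MeasurableSpace E] [BorelSpace E]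
  {Γ : Subgroup E} [DiscreteTopology Γ] [Countable Γ] [MeasurableSpace (E ⧸ Γ)]
  [BorelSpace (E ⧸ Γ)] {ν : Measure (E ⧸ Γ)} [IsProbabilityMeasure ν]
  (hν : ∀ g : E, ν.map (fun x => g • x) = ν)
  {Λ : Type} [Group Λ] [Countable Λ] {α : Γ →* (Ell2 Λ →L[ℂ] Ell2 Λ)} (hα : Frame α)
  {J : Type} [Fintype J] [DecidableEq J] {k l : J → Type} [∀ j, NontriviallyNormedField (k j)]
  [∀ j, ProperSpace (k j)] [∀ j, MeasurableSpace (k j)] [∀ j, NontriviallyNormedField (l j)]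
  [∀ j, ProperSpace (l j)] {μ : ∀ j, Measure (k j)} {N : J → ℕ}
  {ι : ∀ j, GG (k j) (N j) →* E} {a a' : ∀ j, E →* PG (k j) (N j + 1)} {w : ∀ j, (k j)ˣ}
  {q : ∀ j, Γ → GG (l j) (N j)}

/-- **Both families of legs, mixed fields**, any source group: no hypothesis on positions is left. -/
theorem exPX_of (hk : ∀ j, H933.LocK (k j)) (hl : ∀ j, H933.LocK (l j))
    (hΛ : ∀ g : Λ, g ≠ 1 → Set.Infinite {y : Λ | ∃ h, y = h * g * h⁻¹})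
    (hA : AdmP ι a a') (hcomm : ∀ i j, i ≠ j → ∀ g h, Commute (ι i g) (ι j h))
    (hw : ∀ j, ‖(w j : k j)‖ < 1) (hz : ∀ j, Cz (w j) (ι j) (a j) (a' j))
    (hL : ∀ i j (q' : Γ → GG (l j) (N i)), PH q' → LegB2 (μ i) (w i) (ι i) (pic hν hα)
      (lam₁ ν α) (XX ν Λ ∪ Set.range (lam₂ ν α)) (Om ν Λ) (H103.mS₁ ν hα) q')
    (hq : ∀ j, PH (q j)) (fin : ∀ C : ℝ, {γ : Γ | ∀ j, nm (q j γ) ≤ C}.Finite)
    (inj : ∀ γ, (∀ j, sp (l j) (N j + 1) (q j γ) = 1) → γ = 1)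
    (nis : ∀ j d, 1 ≤ d → d ≤ N j →
      NIS fun (γ : Γ) (x : Gr (l j) (Fin (N j + 1)) d) => q j γ • x)
    (nis' : ∀ j d, 1 ≤ d → d ≤ N j →
      NIS fun (γ : Γ) (x : Gr (l j) (Fin (N j + 1)) d) => ct (q j γ) • x) :
    ∃ (m₁ m₂ : Set Γ → (KK ν Λ →L[ℂ] KK ν Λ)) (τ₁ τ₂ : J → J)
      (q₁ : ∀ j, Γ → GG (l (τ₁ j)) (N j)) (q₂ : ∀ j, Γ → GG (l (τ₂ j)) (N j))
      (E₁ F₁ : ∀ j, YY (k j) (N j) → (CY (l (τ₁ j)) (N j) →⋆ₐ[ℂ] (KK ν Λ →L[ℂ] KK ν Λ)))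
      (E₂ F₂ : ∀ j, YY (k j) (N j) → (CY (l (τ₂ j)) (N j) →⋆ₐ[ℂ] (KK ν Λ →L[ℂ] KK ν Λ))),
      (∀ j, SX.LegN (μ j) (w j) (ι j) (a j) (a' j) (pic hν hα) (lam₁ ν α)
        (XX ν Λ ∪ Set.range (lam₂ ν α)) (Om ν Λ) m₁ (q₁ j) (ZP q₁ j) (E₁ j) (F₁ j)) ∧
      (∀ j, SX.LegN (μ j) (w j) (ι j) (a j) (a' j) (pic hν hα) (lam₂ ν α)
        (XX ν Λ ∪ Set.range (lam₁ ν α)) (Om ν Λ) m₂ (q₂ j) (ZP q₂ j) (E₂ j) (F₂ j)) ∧
      (∀ γ, (∀ j, sp (l (τ₁ j)) (N j + 1) (q₁ j γ) = 1) → γ = 1) ∧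
      (∀ γ, (∀ j, sp (l (τ₂ j)) (N j + 1) (q₂ j γ) = 1) → γ = 1) ∧
      (∀ C : ℝ, {γ : Γ | ∀ j, nm (q₁ j γ) ≤ C}.Finite) ∧
      (∀ C : ℝ, {γ : Γ | ∀ j, nm (q₂ j γ) ≤ C}.Finite) := by
  rcases isEmpty_or_nonempty J with hJ | ⟨⟨j₀⟩⟩
  · exact ⟨fun _ => 0, fun _ => 0, id, id, q, q, fun j => isEmptyElim j, fun j => isEmptyElim j,
      fun j => isEmptyElim j, fun j => isEmptyElim j, fun j => isEmptyElim j,
      fun j => isEmptyElim j, inj, inj, fin, fin⟩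
  haveI : Nonempty J := ⟨j₀⟩
  haveI : NoncompactSpace E := H859.ExB.noncpt (hA.adm j₀) (hw j₀)
  have hN2 : ∀ j, 2 ≤ N j := fun j => (hA.adm j).hN
  have hN1 : ∀ j, 1 ≤ N j := fun j => le_trans one_le_two (hN2 j)
  obtain ⟨Br, τ₀, hB, nrm, h1⟩ := exists_tau hν hα hΛ (fun j => hA.adm j) hcomm hw hz
    hl hN1 le_rfl hq fin
  obtain ⟨τ, hτ, hτN, t1, t2⟩ := H584.Tau.tau_out (a := a) hν hΛ hα hl
    (fun j => hN1 j) (fun j => (hA.adm j).cι) (fun j => (hA.adm j).ca)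
    (fun j => (hA.adm j).comp) hcomm hq fin (w := w)
    (fun j => H776.KW.kak_walls (hk j) (w j) (hw j)) fun i => ⟨τ₀ i, h1 i⟩
  have hp : ∀ i {b : E}, (b = ι i (bw (w i)) ∨ b = (ι i (bw (w i)))⁻¹) → ∀ ε : ℝ, 0 < ε →
      ∃ r : ℝ, ∀ᶠ n : ℕ in atTop, ‖H103.mS₁ ν hα {γ | r < G2 (q (τ i) γ) ∧
        r < G2 (ct (q (τ i) γ))} (pic hν hα (b ^ n) (Om ν Λ))‖ ≤ ε :=
    fun i b hb ε hε => H515.HP.hpos_P hν hΛ hα hk hl hN2 (fun j => (hA.adm j).cι)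
      (fun j => (hA.adm j).ca) (fun j => (hA.adm j).comp) hq fin hw hτN t2 i hb hε
  obtain ⟨q', Ec, F, hL, hi, hf⟩ := legX_out (μ := μ) (w := w) (ι := ι) (a := a) (a' := a')
    (π := pic hν hα) (lam := lam₁ ν α) (W := XX ν Λ ∪ Set.range (lam₂ ν α)) (Ω := Om ν Λ)
    (m := H103.mS₁ ν hα) fin inj hτ fun i =>
      leg_pairX hν hα hΛ (hA.adm i) (hw i) (hz i) hN1 hq fin (τ i) (hτN i)
        (hL i (τ i)) (hB.bb hN1 (τ i)) (hB.bb_ct hN1 (τ i)) (nrm i) (nis (τ i)) (nis' (τ i))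
        (t1 i (Om ν Λ)) (hp i (Or.inl rfl)) (hp i (Or.inr rfl))
  exact ⟨_, _, τ, τ, q', q', Ec, F, _, _, hL,
    fun j => H859.SXN.sx_leg_second hν hα hΛ (hL j), hi, hi, hf, hf⟩

end ex

end Vale.Agent.P092.H305.PX
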