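import Vale.Agent.P092.H305.PX.XEx
import Vale.Agent.P092.SX.Fin1

/-!
P092, Team N, products with mixed fields (helper305): **[P-EX]** for `∏ PSL_(N j + 1)(k j)`, and the
final statement `SNP.St.Final1` (every ICC lattice, reducible or not, of every finite product of
groups `SL_n(k)`, `PSL_n(k)`, `n ≥ 3`, any local fields) from the joints of one leg.
-/

set_option linter.all false

open scoped InnerProductSpace ENNReal LinearAlgebra.Projectivization
open Filter Topology ContinuousLinearMap MeasureTheory TopologicalSpace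

namespace Vale.Agent.P092.H305.PX

open Vale.Agent.P092.SN (Adm bw)
open Vale.Agent.P092.H368.SN (Cz cz_pi cz_psl ad0_of)
open Vale.Agent.P092.SNP.St Vale.Agent.P092.SR.St Vale.Agent.P092.H515.St

/-- **[P-EX]**, mixed fields, products of groups `PSL_n(k)`. -/
theorem exPSX {J : Type} [Fintype J] [DecidableEq J] (k : J → Type)
    [∀ j, NontriviallyNormedField (k j)] [∀ j, ProperSpace (k j)] [∀ j, MeasurableSpace (k j)]
    [∀ j, BorelSpace (k j)] (μ : ∀ j, Measure (k j)) [∀ j, (μ j).IsAddHaarMeasure] (N : J → ℕ)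
    (hk : ∀ j, H933.LocK (k j)) (hN : ∀ j, 2 ≤ N j) :
    SX.ExPStmt k k μ N (SNP.iP k N) (SNP.aP k N) (SNP.aP' k N) := by
  intro _ _ Γ _ _ _ _ ν _ hν hΓ hicc Λ _ _ hΛ α hα
  choose c h0 h1 using fun j => NormedField.exists_norm_lt_one (k j)
  have hA := SNP.admP_PS k N hk hN
  obtain ⟨m₁, m₂, τ₁, τ₂, q₁, q₂, E₁, F₁, E₂, F₂, h⟩ := exPX_of (μ := μ) (l := k) hν hα hk hk hΛ
    hA (fun i j hij g h => comm_iP k N hij g h)
    (w := fun j => Units.mk0 (c j) (norm_pos_iff.1 (h0 j))) (q := co Γ) h1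
    (fun j => cz_pi j (cz_psl _ le_rfl (ad0_of (H387.Ad.adm_psl (hk j) (hN j) _ le_rfl)) _))
    (fun i j q' hq' => H725.SN.legB2₁ hν hα hΛ (hA.adm i) (h1 i) hq'
      (H725.SN.leviGap_PS hk hN _ i _))
    (fun j => ph_co Γ j) (fin_co Γ) (inj_co Γ)
    (fun j d h1 h2 => nis_co Γ hΓ.covol j h1 h2) (fun j d h1 h2 => nis_co' Γ hΓ.covol j h1 h2)
  exact ⟨_, m₁, m₂, τ₁, τ₂, q₁, q₂, E₁, F₁, E₂, F₂, h⟩

/-- **The core statement for `∏ PSL_(N j + 1)(k j)`**, mixed fields. -/
theorem coreE_PSX (hJ : SX.Joints) {J : Type} [Fintype J] (k : J → Type)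
    [∀ j, NontriviallyNormedField (k j)] [∀ j, ProperSpace (k j)] (N : J → ℕ)
    (hk : ∀ j, H933.LocK (k j)) (hN : ∀ j, 2 ≤ N j) : SN.CoreE (SNP.EP k N) := by
  classical
  rcases isEmpty_or_nonempty J with hJ0 | ⟨⟨j₀⟩⟩
  · haveI : Subsingleton (SNP.EP k N) := ⟨fun x y => funext fun j => hJ0.elim j⟩
    exact SNP.coreE_of_subsingleton _
  · letI : ∀ j, MeasurableSpace (k j) := fun j => borel _
    haveI : ∀ j, BorelSpace (k j) := fun j => ⟨rfl⟩
    have hA := SNP.admP_PS k N hk hN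
    haveI : NoncompactSpace (SNP.EP k N) := SNP.noncompact_of_adm (hA.adm j₀)
    exact SX.coreP_of hA hk (fun i j => (hJ (k i) (k j) _ (hk i) (hk j)).1)
      (fun i j => (hJ (k i) (k j) _ (hk i) (hk j)).2)
      (exPSX k (fun j => (Measure.addHaar : Measure (k j))) N hk hN)

theorem nf_of_typeA {E : Type} [Group E] [TopologicalSpace E] (h : TypeA E) :
    H387.Ad.NF E := by
  cases h with
  | sl n k hk hn => exact H387.Ad.nf_sl n k hk hn
  | psl n k hk hn => exact H387.Ad.nf_psl n k hk hn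

/-- **The final statement for products with mixed fields**, `t = 1`. -/
theorem final1_of (hJ : SX.Joints) : SNP.St.Final1 := by
  intro Γ _ hΓ
  obtain ⟨hicc, I, _, E, _, _, i, ht, hi, hl⟩ := hΓ
  obtain ⟨n, k, _, _, i', hk, hn, hi', hl'⟩ :=
    H387.Ad.lat_normal (fun j => nf_of_typeA (ht j)) hicc i hi hl
  obtain ⟨N, rfl⟩ : ∃ N : I → ℕ, n = fun j => N j + 1 :=
    ⟨fun j => n j - 1, funext fun j => by
      have h3 := hn j
      change n j = n j - 1 + 1
      omega⟩
  exact SN.super_of_coreE (coreE_PSX hJ k N (fun j => SN.lk (hk j))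
    (fun j => by
      have h3 : 3 ≤ N j + 1 := hn j
      omega)) hicc i' hi' hl'

end Vale.Agent.P092.H305.PX
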