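import Vale.Agent.P092.H305.PX.XEx
import Vale.Agent.P092.SX.Fin1
import Vale.Agent.P092.H124.PglD
import Vale.Agent.P092.H725.SN.GK3

/-!
P092, Team N, products with mixed fields (helper305): **[P-EX]** for `∏ PGL_(N j + 1)(k j)`.
-/

set_option linter.all false

open scoped InnerProductSpace ENNReal LinearAlgebra.Projectivization
open Filter Topology ContinuousLinearMap MeasureTheory TopologicalSpace

namespace Vale.Agent.P092.H305.PX

open Vale.Agent.P092.SN (Adm bw)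
open Vale.Agent.P092.H368.SN (Cz cz_pi cz_pgl ad0_of)

theorem comm_iG {J : Type} [DecidableEq J] (k : J → Type) [∀ j, NontriviallyNormedField (k j)]
    (N : J → ℕ) {i j : J} (hij : i ≠ j) (g : RC.GG (k i) (N i)) (h : RC.GG (k j) (N j)) :
    Commute (SX.iG k N i g) (SX.iG k N j h) :=
  Pi.mulSingle_commute hij _ _

/-- **[P-EX]**, products of groups `PGL_n(k)`, any local fields. -/
theorem exPG : SX.ExPG := by
  intro J _ _ k _ _ _ _ μ _ N hk hN
  obtain ⟨l, i1, i2, hl, hc⟩ := H124.Pgl.exists_coord k N hk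
  refine ⟨l, i1, i2, hl, ?_⟩
  intro _ _ Γ _ _ _ _ ν _ hν hΓ hicc Λ _ _ hΛ α hα
  obtain ⟨q, hq⟩ := hc Γ hΓ.covol
  choose c h0 h1 using fun j => NormedField.exists_norm_lt_one (k j)
  have hA := SX.admP_PG k N hk hN
  obtain ⟨m₁, m₂, τ₁, τ₂, q₁, q₂, E₁, F₁, E₂, F₂, h⟩ := exPX_of (μ := μ) (l := l) hν hα hk hl hΛ
    hA (fun i j hij g h => comm_iG k N hij g h)
    (w := fun j => Units.mk0 (c j) (norm_pos_iff.1 (h0 j))) (q := q) h1
    (fun j => cz_pi j (cz_pgl (ad0_of (H387.Ad.adm_pgl (hk j) (hN j))) _))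
    (fun i j q' hq' => H725.SN.legB2K₁ hν hα hΛ (hA.adm i) (h1 i) hq'
      (H725.SN.leviGapK_PG k N hk hN i _))
    hq.ph hq.fin hq.inj hq.nis hq.nis'
  exact ⟨_, m₁, m₂, τ₁, τ₂, q₁, q₂, E₁, F₁, E₂, F₂, h⟩

end Vale.Agent.P092.H305.PX
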