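import Vale.Agent.P092.H305.PX.Legs
import Vale.Agent.P092.SX.Defs

/-!
P092, Team N, products, two fields (helper305): the letters of `PX/Leg`, `PX/Legs` for `SX.LegN` and
`SX.LegNF`: change of the family `Z`; from the legs of the source factors `i` with the target
coordinates `τ i` to the family of legs.
-/

set_option linter.all false

open scoped InnerProductSpace ENNReal LinearAlgebra.Projectivization
open Filter Topology ContinuousLinearMap MeasureTheory TopologicalSpace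

namespace Vale.Agent.P092.H305.PX

open Vale.Agent.P092.SN (CY nm NW NWA UD PH)
open Vale.Agent.P092.SNP (AdmP ZP)
open Vale.Agent.P092.SD (Ms UC MsF)
open Vale.Agent.P092.RC (GG PG YY y0 ct)
open Vale.Agent.P092.H35 (sp)

section ms

variable {Γ K κ : Type} [Group Γ] [NormedAddCommGroup K] [InnerProductSpace ℂ K]
  [CompleteSpace K] {lam : Γ →* (K →L[ℂ] K)} {W : Set (K →L[ℂ] K)} {m : Set Γ → (K →L[ℂ] K)}

theorem pr_le (h1 : ∀ S, adjoint (m S) = m S) (h2 : ∀ S T, m (S ∩ T) = m S * m T) (S : Set Γ)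
    (ξ : K) : ‖m S ξ‖ ≤ ‖ξ‖ := by
  have h1' : m S * m S = m S := by rw [← h2, Set.inter_self]
  have h3 : ⟪m S ξ, m S ξ⟫_ℂ = ⟪ξ, m S ξ⟫_ℂ := by
    conv_lhs => rw [← h1 S]
    rw [ContinuousLinearMap.adjoint_inner_left]
    have h3 : m S (m S ξ) = m S ξ := by
      change (m S * m S) ξ = m S ξ
      rw [h1']
    rw [h1 S, h3]
  by_cases h0 : ‖m S ξ‖ = 0
  · rw [h0]
    exact norm_nonneg _
  · have h4 : ‖m S ξ‖ * ‖m S ξ‖ ≤ ‖ξ‖ * ‖m S ξ‖ := by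
      have h5 : ‖⟪m S ξ, m S ξ⟫_ℂ‖ = ‖m S ξ‖ * ‖m S ξ‖ := by
        rw [inner_self_eq_norm_sq_to_K, norm_pow, sq]
        simp
      rw [← h5, h3]
      exact norm_inner_le_norm _ _
    exact le_of_mul_le_mul_right h4 (lt_of_le_of_ne (norm_nonneg _) (Ne.symm h0))

theorem pr_mono (h1 : ∀ S, adjoint (m S) = m S) (h2 : ∀ S T, m (S ∩ T) = m S * m T)
    {S T : Set Γ} (hST : S ⊆ T) (ξ : K) : ‖m S ξ‖ ≤ ‖m T ξ‖ := by
  have h3 : m S = m S * m T := by rw [← h2, Set.inter_eq_left.2 hST]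
  rw [h3]
  exact pr_le h1 h2 S (m T ξ)

theorem msF_mono {Ω : κ → K} (h : MsF lam W Ω m) {S T : Set Γ} (hST : S ⊆ T) (ξ : K) :
    ‖m S ξ‖ ≤ ‖m T ξ‖ := pr_mono h.adj h.inf hST ξ

end ms

section leg

variable {kS k : Type} [NontriviallyNormedField kS] [ProperSpace kS] [NontriviallyNormedField k]
  [ProperSpace k] {N : ℕ} {E Γ K κ : Type} [Group E] [Fintype κ]
  [TopologicalSpace E] [Group Γ] [NormedAddCommGroup K] [InnerProductSpace ℂ K] [CompleteSpace K]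
  {w : kSˣ} {ι : GG kS N →* E} {a a' : E →* PG kS (N + 1)} {π : E →* (K →L[ℂ] K)}
  {lam : Γ →* (K →L[ℂ] K)} {W : Set (K →L[ℂ] K)} {m : Set Γ → (K →L[ℂ] K)}
  {q : Γ → GG k N} {Z Z' : ℝ → Set Γ}

theorem nwsX_change {Ω : K} (hM : ∀ {S T : Set Γ}, S ⊆ T → ∀ ξ, ‖m S ξ‖ ≤ ‖m T ξ‖)
    (hz : ∀ R, ∃ R', Z R ⊆ Z' R') (hm : Monotone Z')
    (h : SX.NWS w ι π Ω m q Z) : SX.NWS w ι π Ω m q Z' := by
  intro g ε hε
  obtain ⟨R, hR⟩ := h g ε hε
  obtain ⟨R', h1, h2⟩ := exists_ge hz hm R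
  refine ⟨R', fun t => (hM ?_ _).trans (hR t)⟩
  intro γ hγ hγ'
  exact hγ ⟨h2 hγ'.1, NW.mono h1 hγ'.2⟩

theorem efamX_change (hM : ∀ {S T : Set Γ}, S ⊆ T → ∀ ξ, ‖m S ξ‖ ≤ ‖m T ξ‖)
    (hz : ∀ R, ∃ R', Z R ⊆ Z' R') (hm : Monotone Z')
    {Ec : YY kS N → (CY k N →⋆ₐ[ℂ] (K →L[ℂ] K))} (h : SX.EFam w ι a π lam W m q Z Ec) :
    SX.EFam w ι a π lam W m q Z' Ec where
  cm := h.cm
  cov := h.cov
  pcov := h.pcov
  dom g u A hA hu ζ ε hε := by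
    obtain ⟨R, hR⟩ := h.dom g u A hA hu ζ ε hε
    obtain ⟨R', h1, h2⟩ := exists_ge hz hm R
    refine ⟨R', fun T hT => (hR T hT).mono fun t ht => ht.trans ?_⟩
    exact add_le_add_left (mul_le_mul_of_nonneg_left (hM (nwa_mono h1 h2) _)
      (norm_nonneg _)) _
  agr := h.agr

/-- **Change of the family `Z`**, one vector. -/
theorem legX_change [MeasurableSpace kS] {μ : Measure kS} {Ω : K}
    {Ec F : YY kS N → (CY k N →⋆ₐ[ℂ] (K →L[ℂ] K))}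
    (h : SX.LegN μ w ι a a' π lam W Ω m q Z Ec F)
    (hm : Monotone Z') (hz : ∀ R, ∃ R', Z R ⊆ Z' R') (hz' : ∀ R, ∃ R', Z' R ⊆ Z R') :
    SX.LegN μ w ι a a' π lam W Ω m q Z' Ec F where
  adm := h.adm
  hw := h.hw
  pic := h.pic
  ms := h.ms
  uc := h.uc
  ph := h.ph
  zm := hm
  ud R := by
    obtain ⟨R', h1⟩ := hz' R
    exact ud_mono (h.ud R') h1
  orb := h.orb
  orb' := h.orb'
  size := h.size
  size' := h.size'
  nws := nwsX_change (ms_mono h.ms) hz hm h.nws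
  nws' := nwsX_change (ms_mono h.ms) hz hm h.nws'
  e := efamX_change (ms_mono h.ms) hz hm h.e
  f := efamX_change (ms_mono h.ms) hz hm h.f
  nis := h.nis

/-- **Change of the family `Z`**, a family of vectors. -/
theorem legXF_change [MeasurableSpace kS] {μ : Measure kS} {Ω : κ → K}
    {Ec F : YY kS N → (CY k N →⋆ₐ[ℂ] (K →L[ℂ] K))}
    (h : SX.LegNF μ w ι a a' π lam W Ω m q Z Ec F)
    (hm : Monotone Z') (hz : ∀ R, ∃ R', Z R ⊆ Z' R') (hz' : ∀ R, ∃ R', Z' R ⊆ Z R') :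
    SX.LegNF μ w ι a a' π lam W Ω m q Z' Ec F where
  adm := h.adm
  hw := h.hw
  pic := h.pic
  ms := h.ms
  uc := h.uc
  ph := h.ph
  zm := hm
  ud R := by
    obtain ⟨R', h1⟩ := hz' R
    exact ud_mono (h.ud R') h1
  orb := h.orb
  orb' := h.orb'
  size := h.size
  size' := h.size'
  nws i := nwsX_change (msF_mono h.ms) hz hm (h.nws i)
  nws' i := nwsX_change (msF_mono h.ms) hz hm (h.nws' i)
  e := efamX_change (msF_mono h.ms) hz hm h.e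
  f := efamX_change (msF_mono h.ms) hz hm h.f
  nis := h.nis

end leg

/-! ### The targets: coordinates `q j` over `l j`, letters `q' i` over `l (τ i)` -/

section cmp

variable {Γ J : Type} [Fintype J] {l : J → Type} [∀ j, NontriviallyNormedField (l j)] {N : J → ℕ}
  {τ : J → J} {q : ∀ j, Γ → GG (l j) (N j)} {q' : ∀ i, Γ → GG (l (τ i)) (N i)}

theorem ZPX_le (hτ : Function.Bijective τ) (hc : ∀ i, Cmp (q (τ i)) (q' i)) (i : J) (R : ℝ) :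
    ∃ R', ZP q (τ i) R ⊆ ZP (k := fun i => l (τ i)) q' i R' := by
  choose C hC using fun l => (hc l).le R
  obtain ⟨M, hM⟩ := exists_max C
  exact ⟨M, fun γ hγ l hl => (hC l γ (hγ (τ l) fun h => hl (hτ.1 h))).trans (hM l)⟩

theorem ZPX_ge (hτ : Function.Bijective τ) (hc : ∀ i, Cmp (q (τ i)) (q' i)) (i : J) (R : ℝ) :
    ∃ R', ZP (k := fun i => l (τ i)) q' i R ⊆ ZP q (τ i) R' := by
  choose C hC using fun l => (hc l).ge R
  obtain ⟨M, hM⟩ := exists_max C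
  refine ⟨M, fun γ hγ j hj => ?_⟩
  obtain ⟨l, rfl⟩ := hτ.2 j
  exact (hC l γ (hγ l fun h => hj (by rw [h]))).trans (hM l)

theorem finX_cmp (hτ : Function.Bijective τ) (hc : ∀ i, Cmp (q (τ i)) (q' i))
    (hf : ∀ C : ℝ, {γ | ∀ j, nm (q j γ) ≤ C}.Finite) (C : ℝ) :
    {γ | ∀ j, nm (q' j γ) ≤ C}.Finite := by
  choose D hD using fun l => (hc l).ge C
  obtain ⟨M, hM⟩ := exists_max D
  refine (hf M).subset fun γ hγ j => ?_
  obtain ⟨l, rfl⟩ := hτ.2 j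
  exact (hD l γ (hγ l)).trans (hM l)

theorem injX_cmp [One Γ] (hτ : Function.Bijective τ) (hc : ∀ i, Cmp (q (τ i)) (q' i))
    (hi : ∀ γ, (∀ j, sp (l j) (N j + 1) (q j γ) = 1) → γ = 1) (γ : Γ)
    (h : ∀ j, sp (l (τ j)) (N j + 1) (q' j γ) = 1) : γ = 1 := by
  refine hi γ fun j => ?_
  obtain ⟨l, rfl⟩ := hτ.2 j
  exact (hc l).ker γ (h l)

end cmp

section legs

variable {J : Type} [Fintype J] {k l : J → Type} [∀ j, NontriviallyNormedField (k j)]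
  [∀ j, ProperSpace (k j)] [∀ j, MeasurableSpace (k j)] [∀ j, NontriviallyNormedField (l j)]
  [∀ j, ProperSpace (l j)] {N : J → ℕ} {E Γ K κ : Type} [Group E] [Fintype κ]
  [TopologicalSpace E] [Group Γ] [NormedAddCommGroup K] [InnerProductSpace ℂ K] [CompleteSpace K]
  {μ : ∀ j, Measure (k j)} {w : ∀ j, (k j)ˣ} {ι : ∀ j, GG (k j) (N j) →* E}
  {a a' : ∀ j, E →* PG (k j) (N j + 1)} {π : E →* (K →L[ℂ] K)} {lam : Γ →* (K →L[ℂ] K)}
  {W : Set (K →L[ℂ] K)} {m : Set Γ → (K →L[ℂ] K)}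

/-- **One leg of the product**, output form, a family of vectors: `h` = the legs with the
coordinates `q (τ i)` of the target, cast and dualised. -/
theorem legXF_out {Ω : κ → K} {q : ∀ j, Γ → GG (l j) (N j)}
    (hf : ∀ C : ℝ, {γ | ∀ j, nm (q j γ) ≤ C}.Finite)
    (hi : ∀ γ, (∀ j, sp (l j) (N j + 1) (q j γ) = 1) → γ = 1)
    {τ : J → J} (hτ : Function.Bijective τ) (h : ∀ i, ∃ (q' : Γ → GG (l (τ i)) (N i))
      (Ec F : YY (k i) (N i) → (CY (l (τ i)) (N i) →⋆ₐ[ℂ] (K →L[ℂ] K))), Cmp (q (τ i)) q' ∧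
        SX.LegNF (μ i) (w i) (ι i) (a i) (a' i) π lam W Ω m q' (ZP q (τ i)) Ec F) :
    ∃ (q' : ∀ j, Γ → GG (l (τ j)) (N j))
      (E₁ F₁ : ∀ j, YY (k j) (N j) → (CY (l (τ j)) (N j) →⋆ₐ[ℂ] (K →L[ℂ] K))),
      (∀ j, SX.LegNF (μ j) (w j) (ι j) (a j) (a' j) π lam W Ω m (q' j)
        (ZP (k := fun i => l (τ i)) q' j) (E₁ j) (F₁ j)) ∧
      (∀ γ, (∀ j, sp (l (τ j)) (N j + 1) (q' j γ) = 1) → γ = 1) ∧
      ∀ C : ℝ, {γ : Γ | ∀ j, nm (q' j γ) ≤ C}.Finite := by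
  choose q' E₁ F₁ hc hl using h
  exact ⟨q', E₁, F₁, fun j => legXF_change (hl j) (ZP_mono (k := fun i => l (τ i)) q' j)
    (ZPX_le hτ hc j) (ZPX_ge hτ hc j), injX_cmp hτ hc hi, finX_cmp hτ hc hf⟩

/-- **One leg of the product**, output form, one vector. -/
theorem legX_out {Ω : K} {q : ∀ j, Γ → GG (l j) (N j)}
    (hf : ∀ C : ℝ, {γ | ∀ j, nm (q j γ) ≤ C}.Finite)
    (hi : ∀ γ, (∀ j, sp (l j) (N j + 1) (q j γ) = 1) → γ = 1)
    {τ : J → J} (hτ : Function.Bijective τ) (h : ∀ i, ∃ (q' : Γ → GG (l (τ i)) (N i))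
      (Ec F : YY (k i) (N i) → (CY (l (τ i)) (N i) →⋆ₐ[ℂ] (K →L[ℂ] K))), Cmp (q (τ i)) q' ∧
        SX.LegN (μ i) (w i) (ι i) (a i) (a' i) π lam W Ω m q' (ZP q (τ i)) Ec F) :
    ∃ (q' : ∀ j, Γ → GG (l (τ j)) (N j))
      (E₁ F₁ : ∀ j, YY (k j) (N j) → (CY (l (τ j)) (N j) →⋆ₐ[ℂ] (K →L[ℂ] K))),
      (∀ j, SX.LegN (μ j) (w j) (ι j) (a j) (a' j) π lam W Ω m (q' j)
        (ZP (k := fun i => l (τ i)) q' j) (E₁ j) (F₁ j)) ∧
      (∀ γ, (∀ j, sp (l (τ j)) (N j + 1) (q' j γ) = 1) → γ = 1) ∧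
      ∀ C : ℝ, {γ : Γ | ∀ j, nm (q' j γ) ≤ C}.Finite := by
  choose q' E₁ F₁ hc hl using h
  exact ⟨q', E₁, F₁, fun j => legX_change (hl j) (ZP_mono (k := fun i => l (τ i)) q' j)
    (ZPX_le hτ hc j) (ZPX_ge hτ hc j), injX_cmp hτ hc hi, finX_cmp hτ hc hf⟩

end legs

end Vale.Agent.P092.H305.PX
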